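import Vale.Agent.P113.Main

namespace Vale.Agent.Results.P113.HaltingFlow

open Set Vale.Agent.P113

/-- For every computable viscosity there are a point `a`, an open set `O` of the torus and a force
compiler such that the trajectory of `a` in the unique classical solution from rest enters `O` if
and only if the machine halts. -/
theorem result (ν : ℝ) (hν : 0 < ν) (hc : ComputableReal ν) :
    ∃ (a : Fin 3 → ℝ) (O : Set (Fin 3 → AddCircle (1 : ℝ)))
      (compile : (ℕ × ℕ × ℕ) × List Bool × List (List (ℕ × ℕ × Bool)) × List ℕ →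
        Nat.Partrec.Code)
      (f : (M : Machine) → List (Fin (M.g + 1)) → ℝ → (Fin 3 → ℝ) → (Fin 3 → ℝ)) (T₀ : ℝ),
      IsOpen O ∧ Computable compile ∧
      (∀ M w, ContDiff ℝ (⊤ : ℕ∞) (fun z : ℝ × (Fin 3 → ℝ) => f M w z.1 z.2) ∧
        (∀ t, Per (f M w t)) ∧ Computes (compile (M.descr w)) (f M w)) ∧
      (∀ M w w' t, T₀ ≤ t → f M w t = f M w' t) ∧
      (∀ M w, ∃ P : ℝ, 0 < P ∧ ∀ t, T₀ ≤ t → f M w (t + P) = f M w t) ∧
      ∀ M w, ∃ (u : ℝ → (Fin 3 → ℝ) → (Fin 3 → ℝ)) (p : ℝ → (Fin 3 → ℝ) → ℝ),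
        ContDiff ℝ (⊤ : ℕ∞) (fun z : ℝ × (Fin 3 → ℝ) => u z.1 z.2) ∧
        ContDiff ℝ (⊤ : ℕ∞) (fun z : ℝ × (Fin 3 → ℝ) => p z.1 z.2) ∧
        (∀ T, 0 < T → IsClassical ν T (f M w) u p ∧
          ∀ v q, IsClassical ν T (f M w) v q → ∀ t ∈ Icc 0 T, v t = u t ∧ q t = p t) ∧
        (∃ X, IsTrajectory u a X) ∧
        ∀ X, IsTrajectory u a X → ((∃ t, 0 ≤ t ∧ toTorus (X t) ∈ O) ↔ M.Halts w) := by
  obtain ⟨compile, h1, h2⟩ := exists_compile
    (P := (ℕ × ℕ × ℕ) × List Bool × List (List (ℕ × ℕ × Bool)) × List ℕ)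
    (fun _ => csM) (fun d => lsM (d.1, d.2.1, d.2.2.1) d.2.2.2) (pr_csM.comp Primrec.snd)
    (pr_lsM (by fun_prop) (by fun_prop) Primrec.snd) hc
  refine ⟨![0, 0, 0], detect, compile, fun M w => ff csM (lsM M.rm (w.map Fin.val)) ν, 2,
    isOpen_detect, h1, fun M w => ⟨contDiff_ff _ _ ν, per_ff _ _ ν, h2 (M.descr w)⟩,
    fun M w w' t ht => ff_indep _ _ _ ν ht,
    fun M w => ⟨4, by norm_num, fun t ht => ff_periodic _ _ ν ht⟩, fun M w => ?_⟩
  refine ⟨uu csM (lsM M.rm (w.map Fin.val)), fun _ _ => 0, contDiff_uu _ _, contDiff_const,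
    fun T hT => ⟨isClassical_uu _ _ ν hT, fun v q hv t ht =>
      ⟨velocity_unique hν.le (isClassical_uu _ _ ν hT) hv ht,
        pressure_unique hν.le (isClassical_uu _ _ ν hT) hv ht⟩⟩,
    exists_trajectory _ _ _, fun X hX => ?_⟩
  rw [halts_iff_micro]
  exact detect_iff (wf_rm M) (valid_iter M w) hX

end Vale.Agent.Results.P113.HaltingFlow
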